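import Crest.Agent.N255.Or.Two
import Crest.Agent.N255.Wv.Cmp
import Crest.Agent.N255.Uc.Cov

/-!
# Row 255 (helper73): block B0, the orientation of the walls by homology and the closed cochain `h_w`
-/

set_option autoImplicit false
open Set
open scoped Pointwise

noncomputable section

namespace Crest.Agent.N255.Or

open Tp Wn Wv En Nv Pt Lv

section gen
variable {X : Type} [TopologicalSpace X] {k : Type} [Field k] {n i j : ℕ} {𝒰 : Set (Set X)} {U : Set X}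

theorem sub_mem_sb {m : ℕ} {σ : Sx n X} (h : σ ∈ ((On U).inf (Sm 𝒰)).S n) (v : Fin (m + 1) → Fin (n + 1)) :
    Tp.sub σ v ∈ ((On U).inf (Sm 𝒰)).S m :=
  ⟨(range_sub σ v).trans h.1, h.2.imp fun _ q => ⟨q.1, (range_sub σ v).trans q.2⟩⟩

theorem cup_congr {A A' A'' : Type} [AddCommGroup A] [Module k A] [AddCommGroup A'] [Module k A']
    [AddCommGroup A''] [Module k A''] (μ : A →ₗ[k] A' →ₗ[k] A'') {φ φ' : Co A i X} {ψ ψ' : Co A' j X}
    (h : φ - φ' ∈ ((On U).inf (Sm 𝒰)).van k A i) (h' : ψ - ψ' ∈ ((On U).inf (Sm 𝒰)).van k A' j) :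
    cup μ n φ ψ - cup μ n φ' ψ' ∈ ((On U).inf (Sm 𝒰)).van k A'' n := fun σ hσ => by
  have a : φ (fr i σ) = φ' (fr i σ) := sub_eq_zero.1 (h _ (sub_mem_sb hσ _))
  have b : ψ (bk j σ) = ψ' (bk j σ) := sub_eq_zero.1 (h' _ (sub_mem_sb hσ _))
  simp [cup, a, b]

theorem exs_add {A : Type} [AddCommGroup A] [Module k A] (φ ψ : Co A n X) :
    exs k 𝒰 (φ + ψ) = exs k 𝒰 φ + exs k 𝒰 ψ := funext fun _ => ev_add _ _ _

theorem cob_Z {A : Type} [AddCommGroup A] [Module k A] (P : Sb X) (η : Co A n X) :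
    cob k η ∈ P.Z k A (n + 1) := by
  rw [Sb.mem_Z, cob_cob]; exact Submodule.zero_mem _

theorem Z_congr {A : Type} [AddCommGroup A] [Module k A] {P : Sb X} {φ ψ : Co A n X}
    (h : φ ∈ P.Z k A n) (e : φ - ψ ∈ P.van k A n) : ψ ∈ P.Z k A n := by
  simpa using Submodule.sub_mem _ h (Sb.van_le_Z e)

/-- a compactly supported class does not see the coboundary of a cochain which is closed far out -/
theorem pair_zero [T2Space X] {O : Ori k 3 X} {𝒞 : Set (Set X)} (ho : ∀ C ∈ 𝒞, IsOpen C)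
    (hc : univ ⊆ ⋃₀ 𝒞) {s r : C(X, ℝ)} {a b R : ℝ} (hab : a < b) (hK : ∀ R, IsCompact (box s r a b R))
    {w : Ch k 3 X} (hw : Wr O 𝒞 s r a b R w) {x g : Co k 1 X} (x1 : x ∈ Cc k univ k 1)
    (x2 : x ∈ (On (win s a b)).Z k k 1) (hg : cob k g ∈ (On (fw s r a b R)).van k k 2) :
    ev k (cob k g) (cap 2 x w) = 0 := by
  obtain ⟨R₀, h0⟩ := Cc_far r x1
  obtain ⟨w', -, hw'⟩ := exists_wr ho hc O hab (hK (max R R₀))
  have e := ev_RN (cob_Z _ g) hg (D_RN cD' (show 1 + 2 = 3 from rfl) x2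
    (hw.sub ho hc (hw'.mono ho hc le_rfl le_rfl (le_max_left _ _) (hK R))))
  rw [map_sub, map_sub, sub_eq_zero] at e
  have m := hw'.mem ho hc
  have e1 : ev k (cup (LinearMap.mul k k) 2 x g) (bd k w') = 0 := Sb.ev_eq_zero
    (cup_van_l _ (van_mono (fun _ h => h.1) (h0 _ (le_max_right R R₀))) _) m.2
  rw [ev_bd, cupS_holds k k k k _ X 1 1 2 rfl, ev_add, Sb.ev_eq_zero (cup_van_l _ x2 _) m.1, ev_smul,
    ev_cup] at e1
  simpa [e] using e1

end gen

theorem out_bey {ι : Type} [DecidableEq ι] {e e' : Ed ι} (h : Out e.v 1 e') :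
    Bey e e' ∨ Bey (rev e) e' := by
  by_cases q : hs e e'.v
  · exact .inl (bey_iff.2 ⟨q, h.2⟩)
  · refine .inr (bey_iff.2 ⟨hs_rev.2 q, fun p => ?_⟩)
    have := rev_injective (cross (e := e') (e' := rev e) p (by simpa using h.2))
    subst this
    simpa using h.1

variable {ι S : Type} [DecidableEq ι] [MulAction (FreeGroup ι) S] {w : En.Wl ι S}
  {F : Subgroup (FreeGroup ι)} {X : Type} [TopologicalSpace X] [MulAction F X] {k : Type} [Field k]

/-- the meridian class cut off at the radius `R` -/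
def Xe (N : Lev w F X) (M : Md w) (k : Type) [CommRing k] (e : Ed ι) (R : ℝ) : Co k 1 X :=
  (On (hi N.r R)).res (al N M k e)

variable {N : Lev w F X} {M : Md w} {e e' : Ed ι} {a b t ρ R : ℝ}

theorem al_sub_Xe : al N M k e - Xe N M k e R ∈ (On (hi N.r R)).van k k 1 := Sb.sub_res _

theorem fw_le_rev : fw (N.s e) N.r a b R ⊆ far N (rev e) (1 - a) R :=
  fun x h => mem_far.2 ⟨h.1, by rw [N.s_rev]; linarith [h.2.1]⟩

/-- the meridian class vanishes on the other walls behind `e` -/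
theorem al_van (N : Lev w F X) (M : Md w) (ha : 0 < a) : ∃ ρ, ∀ e e', Bey (rev e) e' →
    al N M k e ∈ (On (hi (N.s e') a ∩ hi N.r ρ)).van k k 1 := by
  obtain ⟨ρ, H⟩ := N.lab_side a ha
  refine ⟨ρ, fun e e' h σ hσ => ?_⟩
  have q : ∀ i, vl N.lab σ i ∉ w.B (rev e') := fun i => by
    have := hσ ⟨stdSimplex.vertex i, rfl⟩
    exact H _ _ this.2 (by rw [N.s_rev]; linarith [show a < _ from this.1])
  simp [al, rs_apply, t1, M.mer_zero e e' _ _ h (q 0) (q 1)]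

theorem Xe_van (N : Lev w F X) (M : Md w) (ha : 0 < a) : ∃ ρ, ∀ R, ρ ≤ R → ∀ e e', Bey (rev e) e' →
    Xe N M k e R ∈ (On (hi (N.s e') a)).van k k 1 :=
  let ⟨ρ, H⟩ := al_van (k := k) N M ha
  ⟨ρ, fun _ hR e e' h => Sb.res_mem fun σ hσ =>
    H e e' h σ (subset_inter hσ.2 (hσ.1.trans (hi_mono hR)))⟩

/-- the coboundary of `Xe` has compact support on the side behind `e` -/
theorem cob_Xe_Cc (N : Lev w F X) (M : Md w) (e : Ed ι) (ht : t < 1) : ∃ ρ, ∀ R, ρ ≤ R →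
    (N.Sb (lo (N.s e) t)).res (cob k (Xe N M k e R)) ∈ Cc k univ k 2 := by
  obtain ⟨ρ₁, H₁⟩ := al_Z N M e ht
  obtain ⟨ρ₂, H₂⟩ := Xe_van (k := k) N M one_pos
  obtain ⟨D, hD⟩ := N.r_lip
  obtain ⟨D', hD'⟩ := N.s_lip
  refine ⟨max ρ₁ ρ₂, fun R hR => ⟨_, N.cpt e.v 1 (R + D) (D' + 1), subset_univ _,
    Sb.res_mem fun σ hσ => ?_⟩⟩
  obtain ⟨⟨h1, U, hU, h2⟩, h3⟩ := hσ
  by_cases q : range σ ⊆ hi N.r R
  · have p : σ ∈ (N.Sb (far N e t ρ₁)).S 2 := ⟨fun x hx => mem_far.2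
      ⟨((le_max_left _ _).trans hR).trans_lt (q hx), h1 hx⟩, U, hU, h2⟩
    have := Sb.cob_mem (al_sub_Xe (N := N) (M := M) (k := k) (e := e) (R := R)) σ q
    rwa [map_sub, Pi.sub_apply, H₁ k σ p, zero_sub, neg_eq_zero] at this
  · obtain ⟨x, hx, q⟩ := not_subset.1 q
    have r1 : N.r x ≤ R + D := by
      linarith [hD U hU x (h2 hx) x (h2 hx), not_lt.1 (show ¬R < N.r x from q)]
    obtain ⟨e', o, p⟩ : ∃ e', Out e.v 1 e' ∧ D' + 1 < N.s e' x := by
      by_contra c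
      exact h3 hx ⟨r1, fun e' o => not_lt.1 fun p => c ⟨e', o, p⟩⟩
    rcases out_bey o with y | y
    · linarith [N.s_bey e e' x y, show N.s e x < t from h1 hx, hD' e U hU x (h2 hx) x (h2 hx)]
    · exact Sb.cob_mem (H₂ R ((le_max_right _ _).trans hR) e e' y) σ fun z hz =>
        show 1 < N.s e' z by linarith [hD' e' U hU z (h2 hz) x (h2 hx)]

/-- **compactly supported form of an extension** -/
theorem ExtBy.phi (hc : Hc0 k X k 2) {g : Co k 1 X} (hg : ExtBy N M k e t ρ g) (ht : t < 1) :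
    ∃ ρ', ∀ R, ρ' ≤ R → ∃ η ∈ Cc k univ k 1, Xe N M k e R - η ∈ (N.Sb (lo (N.s e) t)).Z k k 1 := by
  obtain ⟨ρ', H⟩ := cob_Xe_Cc (k := k) N M e ht
  refine ⟨ρ', fun R hR => ?_⟩
  set P := N.Sb (lo (N.s e) t)
  set V := lo (N.s e) t ∩ hi (N.s e) (t - 1)
  have le : (N.Sb V).Le P := sb_mono inter_subset_left
  have r1 := Sb.sub_res (k := k) (P := P) (cob k (Xe N M k e R))
  have r2 := Sb.sub_res (k := k) (P := N.Sb V) (g - Xe N M k e R)
  have c2 : (N.Sb V).res (g - Xe N M k e R) ∈ Cc k univ k 1 :=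
    ⟨_, box_cpt N e (t - 1) t (max ρ R), subset_univ _, Sb.res_mem fun σ hσ => by
      have q : ∀ x ∈ range σ, max ρ R < N.r x := fun x hx => not_le.1 fun p =>
        hσ.2 hx ⟨p, le_of_lt (hσ.1.1 hx).2, le_of_lt (hσ.1.1 hx).1⟩
      have a1 := hg.2 σ ⟨fun x hx => mem_far.2 ⟨(le_max_left _ _).trans_lt (q x hx), (hσ.1.1 hx).1⟩,
        hσ.1.2⟩
      have a2 := al_sub_Xe (N := N) (M := M) (k := k) (e := e) σ
        fun x hx => show R < N.r x from (le_max_right _ _).trans_lt (q x hx)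
      simp only [Pi.sub_apply] at a1 a2 ⊢
      linear_combination a1 + a2⟩
  have v : P.res (cob k (Xe N M k e R)) + cob k ((N.Sb V).res (g - Xe N M k e R)) ∈
      (N.Sb V).van k k 2 := by
    have z : cob k g ∈ (N.Sb V).van k k 2 := Sb.Z_mono (le.trans Sb.inf_le_left) hg.1
    have := Submodule.sub_mem _ (Submodule.sub_mem _ z (Sb.van_mono le r1)) (Sb.cob_mem r2)
    convert this using 1
    simp only [map_sub]; abel
  obtain ⟨η, h1, h2⟩ := mem_BP.1 (mv_inj isOpen_lo isOpen_hi (lo_union_hi (sub_one_lt t)) hc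
    (a := exs k N.cv (P.res (cob k (Xe N M k e R)))) (b := 0)
    ⟨exs_Cc (H R hR), exs_Z N.cv_open (cv_sub N _) (Z_congr (cob_Z _ _) r1)⟩ (Submodule.zero_mem _)
    (mem_BP.2 ⟨-exs k N.cv _, Submodule.neg_mem _ (exs_Cc c2), by
      rw [sub_zero, map_neg, sub_neg_eq_add, cob_exs, ← exs_add]
      exact exs_van_of_sm N.cv_open (cv_sub N _) v⟩)).1
  refine ⟨η, h1, ?_⟩
  have := Submodule.sub_mem _ (Submodule.add_mem _ r1 (Sb.van_mono Sb.inf_le_left h2))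
    (Sb.van_mono (Sb.inf_le_right : P.Le _) (exs_sub (θ := P.res (cob k (Xe N M k e R)))))
  rw [Sb.mem_Z]
  convert this using 1
  simp only [map_sub]; abel

/-- the honest cocycle which belongs to `Xe - η` -/
theorem extBy_of_phi {η : Co k 1 X} (h1 : η ∈ Cc k univ k 1)
    (h2 : Xe N M k e R - η ∈ (N.Sb (lo (N.s e) t)).Z k k 1) :
    ∃ ρ, ExtBy N M k e t ρ (exs k N.cv (Xe N M k e R - η)) := by
  obtain ⟨R₀, h0⟩ := Cc_far N.r h1
  refine ⟨max R R₀, exs_Z N.cv_open (cv_sub N _) h2, fun σ hσ => ?_⟩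
  have q : range σ ⊆ hi N.r (max R R₀) := fun x hx => (mem_far.1 (hσ.1 hx)).1
  have a1 := exs_sub (k := k) (θ := Xe N M k e R - η) σ hσ.2
  have a2 := al_sub_Xe (N := N) (M := M) (k := k) (e := e) σ (q.trans (hi_mono (le_max_left R R₀)))
  have a3 := h0 _ (le_max_right R R₀) σ q
  simp only [Pi.sub_apply] at a1 a2 ⊢
  linear_combination a1 - a2 - a3

section inv
variable [ContinuousConstSMul F X]

theorem pull_al (f : F) : pull k (Uc.tr f) (al N M k (f.1 • e)) = al N M k e := funext fun σ => by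
  simp [pull_apply, al, rs_apply, t1, vl, Uc.tr_apply, N.lab_smul, M.mer_smul]

theorem ExtBy.pull (f : F) {g : Co k 1 X} (h : ExtBy N M k (f.1 • e) t ρ g) :
    ExtBy N M k e t ρ (pull k (Uc.tr f) g) := by
  refine ⟨?_, fun σ hσ => ?_⟩
  · rw [Sb.mem_Z, cob_pull]
    exact pull_mem (fun x hx => show N.s _ (f • x) < t by rwa [N.s_smul]) h.1
  · obtain ⟨h1, U, hU, h2⟩ := hσ
    rw [← pull_al f, ← map_sub, pull_apply]
    refine h.2 _ ⟨?_, f • U, N.cv_smul f U hU, ?_⟩ <;> rintro _ ⟨y, rfl⟩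
    · have := mem_far.1 (h1 ⟨y, rfl⟩)
      exact mem_far.2 ⟨by simpa [Uc.tr_apply, N.r_smul] using this.1,
        by simpa [Uc.tr_apply, N.s_smul] using this.2⟩
    · exact ⟨_, h2 ⟨y, rfl⟩, rfl⟩

/-- `Ext` is invariant -/
theorem ext_smul (f : F) : Ext N M k (f.1 • e) t ↔ Ext N M k e t :=
  ⟨fun ⟨ρ, _, h⟩ => ⟨ρ, _, ExtBy.pull f h⟩, fun ⟨ρ, g, h⟩ =>
    ⟨ρ, _, ExtBy.pull f⁻¹ (g := g) (by simpa using h)⟩⟩

end inv

variable [T2Space X] {O : Ori k 3 X} {u : kˣ}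

/-- the degree is not zero -/
theorem deg_abs (hd : N.Deg M O u) (h0 : 0 < a) (h1 : a < b) (h2 : b < 1) {φ ψ : Co k 1 X}
    (hφ : φ - al N M k e ∈ (N.Sb (fw (N.s e) N.r a b R)).van k k 1)
    (hψ : ψ - al N M k (rev e) ∈ (N.Sb (fw (N.s e) N.r a b R)).van k k 1) :
    cup (LinearMap.mul k k) 2 φ ψ ∉ (N.Sb (win (N.s e) a b)).Z k k 2 ⊔
      (N.Sb (fw (N.s e) N.r a b R)).Ex k k 2 := fun h => by
  obtain ⟨R₀, H⟩ := deg_wr N M hd e h0 h1 h2
  obtain ⟨c, s1, hc⟩ := exists_wr N.cv_open N.cv_cover O h1 (box_cpt N e a b (max R R₀))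
  have m := hc.mem N.cv_open N.cv_cover
  have m1 : c ∈ (N.Sb (win (N.s e) a b)).ch k 3 := by rw [Sb.ch_inf]; exact ⟨m.1, s1⟩
  have m2 : bd k c ∈ (N.Sb (fw (N.s e) N.r a b R)).ch k 2 := by
    rw [Sb.ch_inf]; exact ⟨ch_mono (fw_mono le_rfl le_rfl (le_max_left _ _)) m.2, Sb.bd_mem s1⟩
  have e1 := H _ (le_max_right _ _) c hc (Sb.bd_mem s1)
  obtain ⟨x, hx, y, hy, p⟩ := Submodule.mem_sup.1 h
  have e2 := Sb.ev_congr (cup_congr (n := 2) (LinearMap.mul k k) hφ hψ) m2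
  rw [← p, ev_add, Sb.ev_B hx (Sb.bd_mem_B m1), ev_ex hy m2 (bd_bd c), add_zero] at e2
  exact u.ne_zero (e1.symm.trans e2.symm)

/-- the two meridian classes cannot both extend over a window -/
theorem not_both (hd : N.Deg M O u) (h0 : 0 < a) (h1 : a < b) (h2 : b < 1) (p : Ext N M k e b) :
    ¬Ext N M k (rev e) (1 - a) := by
  rintro ⟨ρ', g', q⟩
  obtain ⟨ρ, g, p⟩ := p
  refine deg_abs (R := max ρ ρ') hd h0 h1 h2
    (Sb.van_mono (sb_mono fw_le_far) (p.mono le_rfl (le_max_left _ _)).2)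
    (Sb.van_mono (sb_mono fw_le_rev) (q.mono le_rfl (le_max_right _ _)).2)
    (Submodule.mem_sup_left (cup_Z_sb _ rfl (Sb.Z_mono (Sb.inf_le_left.trans (On_le win_lo)) p.1)
      (Sb.Z_mono (Sb.inf_le_left.trans (On_le ?_)) q.1)))
  rw [Wv.lo_rv]; exact win_hi

/-- the meridian classes are not exact on the far windows -/
theorem not_ex (hd : N.Deg M O u) (h0 : 0 < a) (h1 : a < b) (h2 : b < 1) :
    al N M k (rev e) ∉ (N.Sb (fw (N.s e) N.r a b R)).Ex k k 1 := fun h => by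
  obtain ⟨ρ, H⟩ := al_Z N M e h2
  obtain ⟨η, hη⟩ := Sb.mem_Ex.1 h
  have l : (N.Sb (fw (N.s e) N.r a b (max R ρ))).Le (N.Sb (fw (N.s e) N.r a b R)) :=
    sb_mono (fw_mono le_rfl le_rfl (le_max_left _ _))
  refine deg_abs (R := max R ρ) (φ := al N M k e) (ψ := cob k η) hd h0 h1 h2
    (by rw [sub_self]; exact Submodule.zero_mem _)
    (by simpa using Submodule.neg_mem _ (Sb.van_mono l hη)) (Submodule.mem_sup_right
      (Sb.mem_Ex.2 ⟨-cup (LinearMap.mul k k) 1 (al N M k e) η, ?_⟩))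
  have := cup_congr (n := 2) (LinearMap.mul k k) (φ := cob k (al N M k e)) (φ' := 0) (ψ := η) (ψ' := η)
    (by
      rw [sub_zero]
      exact Sb.Z_mono (sb_mono (fw_le_far.trans (far_mono le_rfl (le_max_right R ρ)))) (H k))
    (by simp : η - η ∈ (N.Sb (fw (N.s e) N.r a b (max R ρ))).van k k 0)
  rw [map_neg, cupS_holds k k k k _ X 1 0 1 rfl]
  convert this using 1
  funext σ
  simp [cup]

variable [ChartedSpace (EE 4) X] (E : End w F k X) (M) (hO : O.ND) (hX : Acy k (univ : Set X) univ)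
  (hd : E.toLev.Deg M O u)
include hO hX hd

/-- **the dichotomy**: one of the two meridian classes extends over its side -/
theorem ext_or (e : Ed ι) (h0 : 0 < a) (h1 : a < b) (h2 : b < 1) :
    Ext E.toLev M k e a ∨ Ext E.toLev M k (rev e) (1 - b) := by
  by_contra hn
  obtain ⟨p, q⟩ := not_or.1 hn
  have hc : Hc0 k X k 2 := hc0 (d := 3) hO hX (by omega) (by omega)
  set δ := (b - a) / 7 with hδ
  have d0 : 0 < δ := by linarith
  obtain ⟨ρ, H⟩ := al_Z E.toLev M (rev e) (t := 1 - a) (by linarith)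
  set g := exs k E.cv (Xe E.toLev M k (rev e) ρ)
  have l : fw (E.s e) E.r a b ρ ⊆ hi E.r ρ := fun _ h => h.1
  have g2 : cob k g ∈ (On (fw (E.s e) E.r a b ρ)).van k k 2 :=
    exs_Z E.cv_open (cv_sub E.toLev _) (Z_congr (Sb.Z_mono (sb_mono fw_le_rev) (H k))
      (Sb.van_mono (Sb.inf_le_left.trans (On_le l)) al_sub_Xe))
  have K := box_cpt E.toLev e
  obtain ⟨wL, -, hL⟩ := exists_wr E.cv_open E.cv_cover O (show a < a + δ by linarith) (K _ _ ρ)
  obtain ⟨wR, -, hR⟩ := exists_wr E.cv_open E.cv_cover O (show b - δ < b by linarith) (K _ _ ρ)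
  obtain ⟨θ, t1, t2⟩ := mem_BP.1 (det_span (d := 2) (i := 0) (j := 1) (a₁ := a + 2 * δ) (b₁ := b - 2 * δ)
    (HL := ZP k (lo (E.s e) (a + δ)) k 1) (HR := ZP k (hi (E.s e) (b - δ)) k 1)
    E.cv_open E.cv_cover hO hX rfl (show a < a + δ by linarith) (by linarith) (by linarith) (by linarith)
    (show b - δ < b by linarith) le_rfl (by linarith) (by linarith) le_rfl (K _ _ ρ)
    (fun _ h => Sb.Z_mono (On_le win_lo) h.2) (fun _ h => Sb.Z_mono (On_le win_hi) h.2)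
    (case_A hX hc E M e (by linarith) (by linarith) (by linarith) (by linarith) p)
    (case_A_hi hX hc E M e (by linarith) (by linarith) (by linarith) (by linarith) q) hL hR
    (cob_Z _ g) g2
    (fun x hx => pair_zero E.cv_open E.cv_cover (by linarith) (K _ _) hL hx.1
      (Sb.Z_mono (On_le win_lo) hx.2) (van_mono (fw_mono le_rfl (by linarith) le_rfl) g2))
    (fun x hx => pair_zero E.cv_open E.cv_cover (by linarith) (K _ _) hR hx.1
      (Sb.Z_mono (On_le win_hi) hx.2) (van_mono (fw_mono (by linarith) le_rfl le_rfl) g2)))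
  rw [← map_sub, win_eq] at t2
  obtain ⟨x, hx, y, hy, m⟩ := mv_coh hX isOpen_lo isOpen_hi (lo_union_hi (by linarith)) t2
  obtain ⟨ρ₁, H₁⟩ := far_ex_of_not E M e (t := b - 3 * δ) (t' := b - 2 * δ) (by linarith) (by linarith)
    (by linarith) (by linarith) p
  obtain ⟨ρ₂, H₂⟩ := far_ex_of_not E M (rev e) (t := 1 - (a + 3 * δ)) (t' := 1 - (a + 2 * δ))
    (by linarith) (by linarith) (by linarith) (by linarith) q
  obtain ⟨ρ₃, H₃⟩ := Cc_far E.r t1
  set R := max (max ρ₁ ρ₂) (max ρ₃ ρ)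
  have f1 : fw (E.s e) E.r (a + 3 * δ) (b - 3 * δ) R ⊆ hi E.r R := fun _ h => h.1
  refine not_ex (e := e) (a := a + 3 * δ) (b := b - 3 * δ) (R := R) hd (by linarith) (by linarith)
    (by linarith) ?_
  have v1 := Sb.Ex_mono (sb_mono (𝒰 := E.cv) ((fw_le_far (a := a + 3 * δ)).trans
    (far_mono le_rfl (show ρ₁ ≤ R by simp [R])))) (H₁ x hx)
  have v2 := Sb.Ex_mono (sb_mono (𝒰 := E.cv) ((fw_le_rev (b := b - 3 * δ)).trans
    (far_mono le_rfl (show ρ₂ ≤ R by simp [R])))) (H₂ y (by rwa [Wv.lo_rv]))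
  have v3 : al E.toLev M k (rev e) - (x + y) ∈
      (E.Sb (fw (E.s e) E.r (a + 3 * δ) (b - 3 * δ) R)).van k k 1 := fun σ hσ => by
    have a1 := m σ fun z hz => ⟨show E.s e z < _ by linarith [(hσ.1 hz).2.2],
      show _ < E.s e z by linarith [(hσ.1 hz).2.1]⟩
    have a2 := H₃ R (by simp [R]) σ (hσ.1.trans f1)
    have a3 := exs_sub (k := k) (θ := Xe E.toLev M k (rev e) ρ) σ hσ.2
    have a4 := al_sub_Xe (N := E.toLev) (M := M) (k := k) (e := rev e) (R := ρ) σ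
      (hσ.1.trans (f1.trans (hi_mono (by simp [R]))))
    simp only [Pi.sub_apply, Pi.add_apply, g] at a1 a3 a4 ⊢
    linear_combination a1 + a2 - a3 + a4
  rw [← sub_add_cancel (al E.toLev M k (rev e)) (x + y)]
  exact Submodule.add_mem _ (Submodule.mem_sup_right v3) (Submodule.add_mem _ v1 v2)

open Classical in
/-- **the orientation**: `o e = true` if the meridian class `mer e` extends over `{s e < 1 / 3}` -/
theorem exists_or [ContinuousConstSMul F X] : ∃ o : Ed ι → Bool, (∀ f ∈ F, ∀ e, o (f • e) = o e) ∧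
    (∀ e, o (rev e) = !o e) ∧ ∀ e, o e = true → Ext E.toLev M k e (1 / 3) := by
  refine ⟨fun e => decide (Ext E.toLev M k e (1 / 3) ∧ (Ext E.toLev M k (rev e) (1 / 3) → pos e)),
    fun f hf e => ?_, fun e => ?_, fun e h => (of_decide_eq_true h).1⟩
  · have a := ext_smul (N := E.toLev) (M := M) (k := k) (e := e) (t := 1 / 3) ⟨f, hf⟩
    have b := ext_smul (N := E.toLev) (M := M) (k := k) (e := rev e) (t := 1 / 3) ⟨f, hf⟩
    simp only [rev_smul, a, b]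
    rfl
  · have := ext_or M E hO hX hd e (a := 1 / 3) (b := 2 / 3) (by norm_num) (by norm_num) (by norm_num)
    rw [show (1 : ℝ) - 2 / 3 = 1 / 3 by norm_num] at this
    simp only [rev_rev, pos_rev, ← decide_not, decide_eq_decide]
    tauto

omit hO hX hd [T2Space X] [ChartedSpace (EE 4) X] in
/-- **the data of block B0** for an oriented wall (`L = {s e < t}`, `β = mer e`, `α = mer (rev e)`):
`Xe e R - η` is closed on the small simplices of `L`, `h` is its honest form -/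
structure Bz (e : Ed ι) (t R : ℝ) (η h : Co k 1 X) : Prop where
  cc : η ∈ Cc k univ k 1
  cl : Xe E.toLev M k e R - η ∈ (E.Sb (lo (E.s e) t)).Z k k 1
  hZ : h ∈ (On (lo (E.s e) t)).Z k k 1
  sm : h - (Xe E.toLev M k e R - η) ∈ (Sm E.cv).van k k 1
  spL : ∀ a a', 0 < a → a < a' → a' < 1 → a ≤ t → (On (lo (E.s e) a')).Z k k 1 ≤
    ZP k (lo (E.s e) a) k 1 ⊔ k ∙ h ⊔ (On (lo (E.s e) a)).Ex k k 1
  spR : ∀ b' b, 0 < b' → b' < b → b < t → (On (hi (E.s e) b')).Z k k 1 ≤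
    ZP k (hi (E.s e) b) k 1 ⊔ (On (hi (E.s e) b)).Ex k k 1

theorem exists_bz (h : Ext E.toLev M k e t) (ht : t < 1) :
    ∃ ρ, ∀ R, ρ ≤ R → ∃ η g, Bz M E e t R η g := by
  have hc : Hc0 k X k 2 := hc0 (d := 3) hO hX (by omega) (by omega)
  obtain ⟨ρ₀, g₀, q⟩ := id h
  obtain ⟨ρ, H⟩ := ExtBy.phi hc q ht
  refine ⟨ρ, fun R hR => ?_⟩
  obtain ⟨η, h1, h2⟩ := H R hR
  obtain ⟨ρ', p⟩ := extBy_of_phi h1 h2
  exact ⟨η, _, h1, h2, p.1, exs_sub, fun a a' a0 a1 a2 a3 => case_B hX hc E M e a0 a1 a2 a3 p,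
    fun b' b b0 b1 b2 => case_A_hi hX hc E M e b0 b1 (b2.trans ht) le_rfl
      (not_both hd (b0.trans b1) b2 ht h)⟩

end Crest.Agent.N255.Or

end
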