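import Crest.Agent.N255.Wn.Ph

/-!
# Row 255 (helper73): detection with two walls (all absolute classes, each tested on its own side)
-/

set_option autoImplicit false
open Set

noncomputable section

namespace Crest.Agent.N255.Or

open Tp Wn

variable {X : Type} [TopologicalSpace X] {k : Type} [Field k] {n i j d : ℕ} [T2Space X]
  [ChartedSpace (EE (d + 1 + 1)) X] {O : Ori k (d + 1) X}

/-- the second half of `det_b` -/
theorem det_of_sides {𝒰 : Set (Set X)} {A₁ A₂ W₁ W₂ L' R' L₁ R₁ U W F K : Set X}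
    (hX : Acy k (univ : Set X) univ) (hO : O.ND) (B : Bt 𝒰 A₁ A₂ W₁ W₂ L' R' L₁ R₁ U W F K)
    (hj : j < d + 1) {f : Co k (j + 1) X} (f1 : f ∈ (On W).Z k k (j + 1))
    (f2 : f ∈ (On F).van k k (j + 1)) {ψ₁ ψ₂ : Co k (j + 1) X} (p : ψ₁ ∈ Cc k L₁ k (j + 1))
    (p4 : cob k ψ₁ = hon 𝒰 k (cup (LinearMap.mul k k) (j + 1 + 1) f (cob k (cut k A₁))))
    (q : ψ₂ ∈ Cc k R₁ k (j + 1))
    (q4 : cob k ψ₂ = hon 𝒰 k (cup (LinearMap.mul k k) (j + 1 + 1) f (cob k (cut k A₂)))) :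
    ∃ θ ∈ Cc k univ k j, f - cob k θ ∈ (On U).van k k (j + 1) := by
  have C := B.cut subset_rfl B.AA
  obtain ⟨Q₁, p1, p2, p3⟩ := p
  obtain ⟨Q₂, q1, q2, q3⟩ := q
  set χ := cut k A₂ - cut k A₁ with hχ
  have x1 : χ ∈ (On A₁).van k k 0 := fun σ h => by simp [hχ, cut_one h, cut_one (h.trans B.AA)]
  have x2 : χ ∈ (On A₂ᶜ).van k k 0 := fun σ h => by
    simp [hχ, cut_zero h, cut_zero (h.trans (compl_subset_compl.2 B.AA))]
  set g := cup (LinearMap.mul k k) (j + 1) f χ with hg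
  have g1 : cob k g - (-1 : k) ^ (j + 1) •
      (cup (LinearMap.mul k k) (j + 1 + 1) f (cob k (cut k A₂)) -
        cup (LinearMap.mul k k) (j + 1 + 1) f (cob k (cut k A₁))) ∈ (Sm 𝒰).van k k _ := by
    have e : cup (LinearMap.mul k k) (j + 1 + 1) f (cob k (cut k A₂)) -
        cup (LinearMap.mul k k) (j + 1 + 1) f (cob k (cut k A₁)) =
        cup (LinearMap.mul k k) (j + 1 + 1) f (cob k χ) := by
      funext σ; simp [hχ, cup, mul_sub]
    rw [e, hg, cupS_holds k k k k _ X (j + 1) 0 _ rfl, add_sub_cancel_right]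
    exact van_sm fun Y hY => by
      rcases B.c Y hY with h | h | h
      exacts [cup_van_r _ _ (van_mono h x1), cup_van_r _ _ (van_mono h x2),
        cup_van_l _ (van_mono h f1) _]
  have g2 := hon_zero B.op B.cov g1
  rw [hon_sub, hon_smul, hon_sub, ← p4, ← q4, ← cob_hon, ← map_sub, ← map_smul, ← map_sub] at g2
  have g3 : hon 𝒰 k g ∈ (On Kᶜ).van k k _ := hon_van B.op B.cov fun Y hY =>
    (C.alt (cup_van_r _ _ x1) (cup_van_r _ _ x2) Y hY).elim (fun h => van_mono inter_subset_left h)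
      fun h => cup_van_l _ (van_mono ((inter_subset_inter_left _ h).trans B.KF) f2) _
  obtain ⟨θ, t1, t2⟩ := hc_zero hO hX hj
    (Submodule.sub_mem _ ⟨K, B.hK, subset_univ _, g3⟩ (Submodule.smul_mem _ _
      (Submodule.sub_mem _ ⟨Q₂, q1, subset_univ _, q3⟩ ⟨Q₁, p1, subset_univ _, p3⟩))) g2
  have u1 : U ⊆ A₂ := fun x hx => (B.u hx).1.1.1
  have u2 : U ⊆ A₁ᶜ := fun x hx => (B.u hx).1.1.2
  have u3 : U ⊆ W := fun x hx => (B.u hx).2
  obtain ⟨e, e1, e2⟩ := sub_hon (𝒰 := 𝒰) (Sb.Z_mono (On_le u3) f1)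
  refine ⟨θ + e, Submodule.add_mem _ t1 ⟨K, B.hK, subset_univ _,
    e2 _ (van_mono ((inter_subset_inter_left _ u3).trans B.KF) f2)⟩, ?_⟩
  have a1 : hon 𝒰 k (f - g) ∈ (On U).van k k _ := hon_van B.op B.cov fun Y _ σ hσ => by
    have := (range_bk 0 σ).trans (hσ.trans inter_subset_right)
    simp [hg, hχ, cup, fr_self, cut_one (this.trans u1), cut_zero (this.trans u2)]
  have a2 : ψ₂ - ψ₁ ∈ (On U).van k k _ := Submodule.sub_mem _
    (van_mono (fun x hx h => (B.u hx).1.2.2 (q2 h)) q3) (van_mono (fun x hx h => (B.u hx).1.2.1 (p2 h)) p3)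
  have := Submodule.add_mem _ (Submodule.add_mem _ e1 a1)
    (Submodule.smul_mem _ ((-1 : k) ^ (j + 1)) a2)
  rwa [hon_sub, show f - hon 𝒰 k f - cob k e + (hon 𝒰 k f - hon 𝒰 k g) +
    (-1 : k) ^ (j + 1) • (ψ₂ - ψ₁) = f - cob k (θ + e) by rw [map_add, t2]; abel] at this

variable {𝒞 : Set (Set X)} {s r : C(X, ℝ)} {a a' a₁ b₁ b' b p q R : ℝ} {wL wR : Ch k (d + 1) X}
  {HL HR : Submodule k (Co k (i + 1) X)} (ho : ∀ C ∈ 𝒞, IsOpen C) (hc : univ ⊆ ⋃₀ 𝒞)
include ho hc

omit [T2Space X] [ChartedSpace (EE (d + 1 + 1)) X] in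
/-- the two cap products detect the same -/
theorem cap_of_cap' (hij : i + 1 + j = d) (hw : Wr O 𝒞 s r a b R wL) {f : Co k (j + 1) X}
    (f1 : f ∈ (On (win s a b)).Z k k (j + 1)) (f2 : f ∈ (On (fw s r a b R)).van k k (j + 1))
    {x : Co k (i + 1) X} (hx : x ∈ (On (win s a b)).Z k k (i + 1)) :
    ev k f (cap (j + 1) x wL) = 0 ↔ ev k f (cap' (j + 1) x wL) = 0 := by
  have := ev_RN f1 f2 (cap_sub_cap' (show i + 1 + (j + 1) = d + 1 by omega) hx (hw.mem ho hc).1
    (hw.mem ho hc).2)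
  rw [map_sub, map_smul, sub_eq_zero] at this
  simp [this]

variable (hO : O.ND) (hX : Acy k (univ : Set X) univ) (hij : i + 1 + j = d)
include hO hX hij

/-- **detection with two test windows**: the classes `HL` of the left side are closed on `(a, p)` and tested
on a wall of `(a, p)`, the classes `HR` of the right side on a wall of `(q, b)` -/
theorem det_span (h1 : a < a') (h2 : a' ≤ a₁) (h3 : a₁ ≤ b₁) (h4 : b₁ ≤ b') (h5 : b' < b)
    (hp : a' ≤ p) (hp' : p ≤ b) (hq : a ≤ q) (hq' : q ≤ b') (hK : IsCompact (box s r a b R))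
    (zl : HL ≤ (On (win s a p)).Z k k (i + 1)) (zr : HR ≤ (On (win s q b)).Z k k (i + 1))
    (wl : (On (lo s a₁)).Z k k (i + 1) ≤ HL ⊔ (On (lo s a')).Ex k k (i + 1))
    (wr : (On (hi s b₁)).Z k k (i + 1) ≤ HR ⊔ (On (hi s b')).Ex k k (i + 1))
    (hwL : Wr O 𝒞 s r a p R wL) (hwR : Wr O 𝒞 s r q b R wR) {f : Co k (j + 1) X}
    (f1 : f ∈ (On (win s a b)).Z k k (j + 1)) (f2 : f ∈ (On (fw s r a b R)).van k k (j + 1))
    (hL : ∀ x ∈ HL, ev k f (cap (j + 1) x wL) = 0) (hR : ∀ x ∈ HR, ev k f (cap (j + 1) x wR) = 0) :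
    f ∈ BP k (win s a₁ b₁) k (j + 1) := by
  set ε := min (a' - a) (b - b') / 3 with hε
  have e0 : 0 < ε := div_pos (lt_min (by linarith) (by linarith)) (by norm_num)
  have e1 : 3 * ε ≤ a' - a := by linarith [min_le_left (a' - a) (b - b')]
  have e2 : 3 * ε ≤ b - b' := by linarith [min_le_right (a' - a) (b - b')]
  obtain ⟨z, hz, hf⟩ := fundS_holds k X (d + 1) O _ (cv 𝒞 s r ε) hK cv_op
    ((subset_univ _).trans (cv_cov ho hc e0))
  have c1 : IsCompact (box s r a (a + 2 * ε) R) :=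
    hK.of_isClosed_subset isClosed_box (box_mono le_rfl (by linarith) le_rfl)
  have c2 : IsCompact (box s r (b - 2 * ε) b R) :=
    hK.of_isClosed_subset isClosed_box (box_mono (by linarith) le_rfl le_rfl)
  have i1 : box s r a (a + 2 * ε) R ⊆ lo s a₁ := fun x hx => show s x < a₁ by linarith [hx.2.2]
  have i2 : box s r (b - 2 * ε) b R ⊆ hi s b₁ := fun x hx => show b₁ < s x by linarith [hx.2.1]
  have B : Bt (cv 𝒞 s r ε) (lo s (a + ε)) (lo s (b - ε)) (win s a (a + 2 * ε)) (win s (b - 2 * ε) b)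
      (lo s a') (hi s b') (lo s a₁) (hi s b₁) (win s a₁ b₁) (win s a b) (fw s r a b R) (box s r a b R) :=
    ⟨cv_op, cv_cov ho hc e0, fun _ hY => cv_three hY le_rfl (by linarith),
      fun _ hY => cv_three hY (by linarith) (by linarith), fun _ hY => cv_three hY le_rfl (by linarith),
      lo_mono (by linarith),
      subset_inter (win_mono le_rfl (by linarith)) (win_lo.trans (lo_mono (by linarith))),
      subset_inter (win_mono (by linarith) le_rfl) (win_hi.trans (hi_mono (by linarith))),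
      isOpen_lo, isOpen_hi, hK, win_diff_box, fw_le,
      ⟨_, c1, subset_inter (box_mono le_rfl (by linarith) le_rfl) i1,
        win_diff_box.trans (fw_mono le_rfl (by linarith) le_rfl)⟩,
      ⟨_, c2, subset_inter (box_mono (by linarith) le_rfl le_rfl) i2,
        win_diff_box.trans (fw_mono (by linarith) le_rfl le_rfl)⟩,
      fun x hx => ⟨⟨⟨show s x < b - ε by linarith [hx.2], fun h => by
        linarith [hx.1, show s x < a + ε from h]⟩, fun h => by linarith [hx.1, show s x < a₁ from h],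
        fun h => by linarith [hx.2, show b₁ < s x from h]⟩, by linarith [hx.1], by linarith [hx.2]⟩⟩
  have d1 : win s a p \ box s r a b R ⊆ fw s r a p R :=
    (sdiff_subset_sdiff_right (box_mono le_rfl hp' le_rfl)).trans win_diff_box
  have d2 : win s q b \ box s r a b R ⊆ fw s r q b R :=
    (sdiff_subset_sdiff_right (box_mono hq le_rfl le_rfl)).trans win_diff_box
  obtain ⟨ψ₁, u, u4⟩ := side (W := win s a p) (F := fw s r a b R) (L' := lo s a') hO
    ⟨B.op, B.cov, fun _ _ => Or.inr (subset_univ _), fun _ _ => Or.inr (subset_univ _), subset_rfl,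
      subset_rfl, B.c₁⟩ hij isOpen_lo c1 i1 (win_diff_box.trans (fw_mono le_rfl (by linarith) le_rfl))
    (win_mono le_rfl (by linarith)) (win_lo.trans (lo_mono (by linarith)))
    zl wl hz (hf.mono c1 hK (box_mono le_rfl (by linarith) le_rfl))
    (RN_mono subset_rfl (fw_mono le_rfl hp' le_rfl)
      (hwL.spec ho hc e0 le_rfl (by linarith) hK d1 hz hf))
    (Sb.Z_mono (On_le (win_mono le_rfl hp')) f1) f2 hL
  obtain ⟨ψ₂, v, v4⟩ := side (W := win s q b) (F := fw s r a b R) (L' := hi s b') hO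
    ⟨B.op, B.cov, fun _ _ => Or.inr (subset_univ _), fun _ _ => Or.inr (subset_univ _), subset_rfl,
      subset_rfl, B.c₂⟩ hij isOpen_hi c2 i2 (win_diff_box.trans (fw_mono (by linarith) le_rfl le_rfl))
    (win_mono (by linarith) le_rfl) (win_hi.trans (hi_mono (by linarith)))
    zr wr hz (hf.mono c2 hK (box_mono (by linarith) le_rfl le_rfl))
    (RN_mono subset_rfl (fw_mono hq le_rfl le_rfl)
      (hwR.spec ho hc e0 (by linarith) (by linarith) hK d2 hz hf))
    (Sb.Z_mono (On_le (win_mono hq le_rfl)) f1) f2 hR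
  exact mem_BP.2 (det_of_sides hX hO B (by omega) f1 f2 u u4 v v4)

/-- **detection with two walls**: the classes of `{s < a₁}` are tested on a wall of `(a, a₁)`, the classes
of `{b₁ < s}` on a wall of `(b₁, b)` -/
theorem det_two (h1 : a < a₁) (h3 : a₁ ≤ b₁) (h5 : b₁ < b) (hK : IsCompact (box s r a b R))
    (hwL : Wr O 𝒞 s r a a₁ R wL) (hwR : Wr O 𝒞 s r b₁ b R wR) {f : Co k (j + 1) X}
    (f1 : f ∈ (On (win s a b)).Z k k (j + 1)) (f2 : f ∈ (On (fw s r a b R)).van k k (j + 1))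
    (hL : ∀ x ∈ (On (lo s a₁)).Z k k (i + 1), ev k f (cap (j + 1) x wL) = 0)
    (hR : ∀ x ∈ (On (hi s b₁)).Z k k (i + 1), ev k f (cap (j + 1) x wR) = 0) :
    f ∈ BP k (win s a₁ b₁) k (j + 1) :=
  det_span ho hc hO hX hij h1 le_rfl h3 le_rfl h5 le_rfl (by linarith) (by linarith) le_rfl hK
    (Sb.Z_mono (On_le win_lo)) (Sb.Z_mono (On_le win_hi)) le_sup_left le_sup_left hwL hwR f1 f2 hL hR

end Crest.Agent.N255.Or

end
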